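import Vale.Agent.P198V50.Top

/-! # P198: Cannon's conjecture, for the metric Cayley graph and the visual topology -/

namespace Vale.Agent.Results.P198.AAVisual

open Vale.Agent.P198V Vale.Agent.P198.H Metric Filter Topology
open P198H (H3)
open scoped NNReal ENNReal

/-- Cannon's conjecture. `Cay hS` is the Cayley graph of `G` as a metric space, all of whose
geodesic triangles are `δ`-slim, and `Bd (vtx hS 1)` is the set of geodesic rays from the vertex
`1` modulo finite Hausdorff distance. Its topology is the visual topology: it is given by the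
Gromov product and by every visual metric, and a visual metric exists. If the boundary is
homeomorphic to the 2-sphere, then `G` has a proper cocompact isometric action on hyperbolic
3-space with finite kernel. -/
theorem result (G : Type) [Group G] (S : Finset G) (hS : Subgroup.closure (S : Set G) = ⊤)
    (δ : ℝ) (hδ : Slim (Cay hS) δ) :
    (∀ g h : G, dist (vtx hS g) (vtx hS h) = wdist S g h) ∧
    (∀ x y : Cay hS, ∃ c, IsSeg c (dist x y) x y) ∧
    (∀ ξ η : Bd (vtx hS 1), groB ξ η = ⊤ ↔ ξ = η) ∧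
    (∀ ξ : Bd (vtx hS 1),
      (𝓝 ξ).HasBasis (fun _ : ℝ≥0 => True) fun r => {η | (r : ℝ≥0∞) ≤ groB ξ η}) ∧
    (∃ d : Bd (vtx hS 1) → Bd (vtx hS 1) → ℝ, IsVisual d) ∧
    (∀ d : Bd (vtx hS 1) → Bd (vtx hS 1) → ℝ, IsVisual d → ∀ ξ,
      (𝓝 ξ).HasBasis (fun ε : ℝ => 0 < ε) fun ε => {η | d ξ η < ε}) ∧
    (Nonempty (Bd (vtx hS 1) ≃ₜ sphere (0 : EuclideanSpace ℝ (Fin 3)) 1) →
      ∃ ρ : G →* (H3 ≃ᵢ H3), Finite ρ.ker ∧
        (∀ K : Set H3, IsCompact K → {g : G | ((ρ g) '' K ∩ K).Nonempty}.Finite) ∧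
        ∃ K : Set H3, IsCompact K ∧ ⋃ g : G, (ρ g) '' K = Set.univ) :=
  final G S hS δ hδ

end Vale.Agent.Results.P198.AAVisual
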